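import Vale.Agent.P247.MathlibUsed

open scoped ContDiff

namespace Vale.Agent.P247.Stmt

/-- The universal cover `ℝ⁴` of the torus `T⁴ = ℝ⁴ / ℤ⁴`, with coordinates `x 0, x 1, x 2, x 3`. -/
abbrev R4 : Type := Fin 4 → ℝ

/-- Differential `k`-forms on `ℝ⁴` (no regularity). -/
abbrev Form (k : ℕ) : Type := R4 → R4 [⋀^Fin k]→L[ℝ] ℝ

/-- Smooth `k`-forms on `T⁴`: smooth forms on `ℝ⁴` invariant under translation by `ℤ⁴`. -/
def OnTorus {k : ℕ} (w : Form k) : Prop :=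
  ContDiff ℝ ∞ w ∧ ∀ (n : Fin 4 → ℤ) (x : R4), w (fun i => x i + n i) = w x

/-- The exterior derivative. -/
noncomputable def d {k : ℕ} (w : Form k) : Form (k + 1) := extDeriv w

/-- The value of a two-form at the point `x` on the vectors `u`, `v`. -/
def val (w : Form 2) (x u v : R4) : ℝ := w x ![u, v]

/-- Closed smooth two-forms on `T⁴`. -/
def ClosedForm (w : Form 2) : Prop := OnTorus w ∧ ∀ x, d w x = 0

/-- Two two-forms on `T⁴` differ by the exterior derivative of a one-form on `T⁴`. -/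
def Cohomologous (w w' : Form 2) : Prop :=
  ∃ a : Form 1, OnTorus a ∧ ∀ x u v, val w x u v - val w' x u v = val (d a) x u v

/-- The coefficient of `dxᵢ ∧ dxⱼ` in a two-form. -/
def co (w : Form 2) (x : R4) (i j : Fin 4) : ℝ := val w x (Pi.single i 1) (Pi.single j 1)

/-- The function `c` such that `a ∧ b = c dx₀ ∧ dx₁ ∧ dx₂ ∧ dx₃` for two-forms `a`, `b`. -/
def wedge (a b : Form 2) (x : R4) : ℝ :=
  co a x 0 1 * co b x 2 3 - co a x 0 2 * co b x 1 3 + co a x 0 3 * co b x 1 2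
    + co a x 1 2 * co b x 0 3 - co a x 1 3 * co b x 0 2 + co a x 2 3 * co b x 0 1

/-- A hypersymplectic structure on `T⁴` (oriented by `dx₀ ∧ dx₁ ∧ dx₂ ∧ dx₃`): three closed
two-forms such that at every point the matrix `ωᵢ ∧ ωⱼ` is positive definite. -/
structure Hypersymplectic (w : Fin 3 → Form 2) : Prop where
  closed : ∀ i, ClosedForm (w i)
  posDef : ∀ x (c : Fin 3 → ℝ), c ≠ 0 → 0 < ∑ i, ∑ j, c i * c j * wedge (w i) (w j) x

/-- The Gram matrix is the identity: `∫_{T⁴} ωᵢ ∧ ωⱼ = δᵢⱼ`. -/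
def Normalized (w : Fin 3 → Form 2) : Prop :=
  ∀ i j, ∫ x in Set.Icc (0 : R4) 1, wedge (w i) (w j) x = if i = j then 1 else 0

/-- A hyperkaehler triple: closed forms with `ωᵢ ∧ ωⱼ = 2 δᵢⱼ μ`, `μ = m dx₀ ∧ dx₁ ∧ dx₂ ∧ dx₃`
a positive volume form. -/
structure Hyperkahler (w : Fin 3 → Form 2) : Prop where
  closed : ∀ i, ClosedForm (w i)
  orthogonal : ∃ m : R4 → ℝ, (∀ x, 0 < m x) ∧
    ∀ x i j, wedge (w i) (w j) x = if i = j then 2 * m x else 0

/-- `γ t`, `0 ≤ t ≤ 1`, is a cohomologous deformation of `w`: smooth in `(t, x)`, starting at `w`,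
hypersymplectic with fixed cohomology classes. -/
structure Deformation (w : Fin 3 → Form 2) (γ : ℝ → Fin 3 → Form 2) : Prop where
  smooth : ∀ i u v, ContDiff ℝ ∞ fun p : ℝ × R4 => val (γ p.1 i) p.2 u v
  start : γ 0 = w
  hypersymplectic : ∀ t ∈ Set.Icc (0 : ℝ) 1, Hypersymplectic (γ t)
  cohomologous : ∀ t ∈ Set.Icc (0 : ℝ) 1, ∀ i, Cohomologous (γ t i) (w i)

/-- The lift to `ℝ⁴` of a smooth map `T⁴ → T⁴`. -/
def TorusMap (f : R4 → R4) : Prop :=
  ContDiff ℝ ∞ f ∧ ∀ n : Fin 4 → ℤ, ∃ m : Fin 4 → ℤ, ∀ x : R4,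
    f (fun i => x i + n i) = fun i => f x i + m i

/-- `f` is the lift of a diffeomorphism of `T⁴`. -/
def TorusDiffeo (f : R4 → R4) : Prop :=
  TorusMap f ∧ ∃ g, TorusMap g ∧ (∀ x, g (f x) = x) ∧ ∀ x, f (g x) = x

/-- The vector `u` at `x` is tangent to the fibres of the torus fibration `T⁴ → T²` given by the
first two coordinates of the diffeomorphism `f`. -/
def Vertical (f : R4 → R4) (x u : R4) : Prop :=
  lineDeriv ℝ f x u 0 = 0 ∧ lineDeriv ℝ f x u 1 = 0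

end Vale.Agent.P247.Stmt
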